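import Mathlib
import Vale.Agent.Lib.P058.Defs

/-!
P058, job J5c: the product of two dihedral orbits is a finite subset of the plane of pairs.
-/

namespace Vale.Agent.Lib.P058.H23

open Vale.Agent.Lib.P058

theorem roots_finite (n : ℕ) (hn : 0 < n) : {z : ℂ | z ^ n = 1}.Finite := by
  have h : {z : ℂ | z ^ n = 1} ⊆ ((Polynomial.nthRoots n (1 : ℂ)).toFinset : Set ℂ) := by
    intro z hz
    have hz' : z ^ n = 1 := hz
    rw [Finset.mem_coe, Multiset.mem_toFinset]
    exact (Polynomial.mem_nthRoots hn).2 hz'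
  exact (Finset.finite_toSet _).subset h

theorem Dorb_finite (n : ℕ) (hn : 0 < n) (a : ℂ) : (Dorb n a).Finite := by
  have hR := roots_finite n hn
  have h : Dorb n a ⊆ (fun z => z * a) '' {z : ℂ | z ^ n = 1} ∪
      (fun z => z * (starRingEnd ℂ) a) '' {z : ℂ | z ^ n = 1} := by
    rintro u ⟨z, hz, hu | hu⟩
    · exact Or.inl ⟨z, hz, hu.symm⟩
    · exact Or.inr ⟨z, hz, hu.symm⟩
  exact ((hR.image _).union (hR.image _)).subset h

theorem mk2_eta (p : E2) : mk2 (p 0) (p 1) = p := by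
  ext i
  fin_cases i
  · rfl
  · rfl

theorem Xset_finite (n : ℕ) (hn : 0 < n) (a : ℂ) : (Xset n a).Finite := by
  have hD := Dorb_finite n hn a
  have h : Xset n a ⊆ (fun q : ℂ × ℂ => mk2 q.1 q.2) '' (Dorb n a ×ˢ Dorb n a) := by
    intro p hp
    exact ⟨(p 0, p 1), ⟨hp.1, hp.2⟩, mk2_eta p⟩
  exact ((hD.prod hD).image _).subset h

end Vale.Agent.Lib.P058.H23
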